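import Vale.Agent.P281.H740.TL.Retr

/-!
# P281, project T-W (helper740), block W2-A: the fibre of a submersion is a complex manifold
-/

open Set Filter
open scoped Topology ContDiff Manifold

set_option linter.unusedSectionVars false

noncomputable section

namespace Vale.Agent.P281.H740

section
variable {E V : Type} [NormedAddCommGroup E] [NormedSpace ℂ E] [NormedAddCommGroup V]
  [NormedSpace ℂ V] [CompleteSpace E] [CompleteSpace V]

/-- inverse function theorem with analyticity on the whole source and target -/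
theorem exists_locdiff {Φ : E → V} {a : E} {G : E ≃L[ℂ] V} (hΦ : ContDiffAt ℂ ω Φ a)
    (hG : HasFDerivAt Φ (G : E →L[ℂ] V) a) :
    ∃ Ψ : OpenPartialHomeomorph E V, (Ψ : E → V) = Φ ∧ a ∈ Ψ.source ∧
      (∀ u ∈ Ψ.source, ContDiffAt ℂ ω Φ u) ∧ ∀ w ∈ Ψ.target, ContDiffAt ℂ ω Ψ.symm w := by
  have hn0 : (ω : WithTop ℕ∞) ≠ 0 := by simp
  set O : Set E := {u | ContDiffAt ℂ ω Φ u ∧ ∃ G' : E ≃L[ℂ] V, HasFDerivAt Φ (G' : E →L[ℂ] V) u}
    with hO
  have hOa : O ∈ 𝓝 a := by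
    have h1 : ∀ᶠ u in 𝓝 a, ContDiffAt ℂ ω Φ u := hΦ.eventually (by simp)
    have h2 : ContinuousAt (fderiv ℂ Φ) a :=
      (hΦ.fderiv_right (m := 1) (by simp)).continuousAt
    have h3 : range ((↑) : (E ≃L[ℂ] V) → E →L[ℂ] V) ∈ 𝓝 (fderiv ℂ Φ a) := by
      rw [hG.fderiv]
      exact G.nhds
    filter_upwards [h1, h2.eventually h3] with u a1 a2
    obtain ⟨G', hG'⟩ := a2
    refine ⟨a1, G', ?_⟩
    rw [hG']
    exact (a1.differentiableAt (by simp)).hasFDerivAt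
  refine ⟨(hΦ.toOpenPartialHomeomorph Φ hG hn0).restrOpen (interior O) isOpen_interior, rfl,
    ⟨hΦ.mem_toOpenPartialHomeomorph_source hG hn0, mem_interior_iff_mem_nhds.2 hOa⟩, ?_, ?_⟩
  · rintro u ⟨-, hu⟩
    exact (interior_subset hu).1
  · intro w hw
    set Ψ := (hΦ.toOpenPartialHomeomorph Φ hG hn0).restrOpen (interior O) isOpen_interior with hΨ
    have h1 : Ψ.symm w ∈ Ψ.source := Ψ.map_target hw
    obtain ⟨h2, G', hG'⟩ := interior_subset h1.2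
    exact Ψ.contDiffAt_symm (f₀' := G') hw hG' h2

end

section
variable {E E' E₀ : Type} [NormedAddCommGroup E] [NormedSpace ℂ E] [NormedAddCommGroup E']
  [NormedSpace ℂ E'] [NormedAddCommGroup E₀] [NormedSpace ℂ E₀] [FiniteDimensional ℂ E]
  [FiniteDimensional ℂ E'] [FiniteDimensional ℂ E₀] {X Z : Type} [TopologicalSpace X]
  [ChartedSpace E X] [TopologicalSpace Z] [ChartedSpace E' Z]

theorem exists_compl (hn : Module.finrank ℂ E = Module.finrank ℂ E' + Module.finrank ℂ E₀)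
    {A : E →L[ℂ] E'} (hA : Function.Surjective A) :
    ∃ (L : E →L[ℂ] E₀) (G : E ≃L[ℂ] E' × E₀), (G : E →L[ℂ] E' × E₀) = A.prod L := by
  have h2 := LinearMap.finrank_range_add_finrank_ker (A : E →ₗ[ℂ] E')
  have h3 : LinearMap.range (A : E →ₗ[ℂ] E') = ⊤ := LinearMap.range_eq_top.2 hA
  rw [h3, finrank_top] at h2
  have h4 : Module.finrank ℂ E₀ = Module.finrank ℂ (LinearMap.ker (A : E →ₗ[ℂ] E')) := by omega
  let e : E₀ ≃ₗ[ℂ] LinearMap.ker (A : E →ₗ[ℂ] E') := LinearEquiv.ofFinrankEq _ _ h4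
  let B : E₀ →L[ℂ] E :=
    LinearMap.toContinuousLinearMap ((LinearMap.ker (A : E →ₗ[ℂ] E')).subtype ∘ₗ e.toLinearMap)
  have hB : Function.Injective B := Subtype.val_injective.comp e.injective
  have hAB : ∀ ξ, A (B ξ) = 0 := fun ξ => (e ξ).2
  obtain ⟨L, G, -, hG⟩ := exists_lin hn hA hB hAB
  exact ⟨L, G, hG⟩

/-- coordinates adapted to a submersion -/
structure Slc (g : X → Z) (z : Z) (Ψ : OpenPartialHomeomorph X (E' × E₀)) : Prop where
  mem : ∀ x ∈ Ψ.source, g x ∈ (chartAt E' z).source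
  fst : ∀ x ∈ Ψ.source, (Ψ x).1 = chartAt E' z (g x)
  hol : ∀ x ∈ Ψ.source, ContMDiffAt 𝓘(ℂ, E) 𝓘(ℂ, E' × E₀) ω Ψ x
  hol_symm : ∀ w ∈ Ψ.target, ContMDiffAt 𝓘(ℂ, E' × E₀) 𝓘(ℂ, E) ω Ψ.symm w

theorem exists_slc [IsManifold 𝓘(ℂ, E) ω X]
    (hn : Module.finrank ℂ E = Module.finrank ℂ E' + Module.finrank ℂ E₀)
    {g : X → Z} {x : X} (hg : ContMDiff 𝓘(ℂ, E) 𝓘(ℂ, E') ω g)
    (hsub : Function.Surjective (mfderiv 𝓘(ℂ, E) 𝓘(ℂ, E') g x)) :
    ∃ Ψ : OpenPartialHomeomorph X (E' × E₀), x ∈ Ψ.source ∧ Slc (E := E) g (g x) Ψ := by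
  have : CompleteSpace E := FiniteDimensional.complete ℂ E
  have : CompleteSpace E' := FiniteDimensional.complete ℂ E'
  have : CompleteSpace E₀ := FiniteDimensional.complete ℂ E₀
  set cX := chartAt E x with hcX
  obtain ⟨L, G, hG⟩ := exists_compl (E₀ := E₀) hn hsub
  have hΦ : HasFDerivAt (fun u => (chartAt E' (g x) (g (cX.symm u)), L u))
      (G : E →L[ℂ] E' × E₀) (cX x) := by
    rw [hG]
    exact (hasStrictFDerivAt_loc (hg x)).hasFDerivAt.prodMk L.hasFDerivAt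
  have hΦc : ContDiffAt ℂ ω (fun u => (chartAt E' (g x) (g (cX.symm u)), L u)) (cX x) :=
    (contDiffAt_loc (hg x)).prodMk L.contDiff.contDiffAt
  obtain ⟨Ψ, hΨ, hx, h1, h2⟩ := exists_locdiff hΦc hΦ
  have hO : IsOpen (g ⁻¹' (chartAt E' (g x)).source) :=
    (chartAt E' (g x)).open_source.preimage hg.continuous
  refine ⟨(cX ≫ₕ Ψ).restrOpen _ hO, ⟨⟨mem_chart_source E x, hx⟩, mem_chart_source E' (g x)⟩, ?_⟩
  refine ⟨fun x' hx' => hx'.2, fun x' hx' => ?_, fun x' hx' => ?_, fun w hw => ?_⟩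
  · show (Ψ (cX x')).1 = _
    rw [hΨ]
    show chartAt E' (g x) (g (cX.symm (cX x'))) = _
    rw [cX.left_inv hx'.1.1]
  · have e1 : ContMDiffAt 𝓘(ℂ, E) 𝓘(ℂ, E) ω cX x' :=
      (contMDiffOn_chart (I := 𝓘(ℂ, E)) (n := ω) (x := x)).contMDiffAt
        (cX.open_source.mem_nhds hx'.1.1)
    have e2 : ContDiffAt ℂ ω Ψ (cX x') := by rw [hΨ]; exact h1 _ hx'.1.2
    exact ContMDiffAt.comp x' (g := Ψ) (f := cX) e2.contMDiffAt e1
  · have hw1 : w ∈ (cX ≫ₕ Ψ).target := hw.1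
    rw [OpenPartialHomeomorph.trans_target] at hw1
    have e1 : ContMDiffAt 𝓘(ℂ, E) 𝓘(ℂ, E) ω cX.symm (Ψ.symm w) :=
      (contMDiffOn_chart_symm (I := 𝓘(ℂ, E)) (n := ω) (x := x)).contMDiffAt
        (cX.open_target.mem_nhds hw1.2)
    have e2 : ContDiffAt ℂ ω Ψ.symm w := h2 w hw1.1
    exact ContMDiffAt.comp w (g := cX.symm) (f := Ψ.symm) e1 e2.contMDiffAt

variable {g : X → Z} {z : Z} {Ψ : OpenPartialHomeomorph X (E' × E₀)}

theorem Slc.apply (h : Slc (E := E) g z Ψ) (s : g ⁻¹' {z}) (hs : s.1 ∈ Ψ.source) :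
    Ψ s.1 = (chartAt E' z z, (Ψ s.1).2) := by
  refine Prod.ext ?_ rfl
  rw [h.fst _ hs, s.2]

theorem Slc.mem_fib (h : Slc (E := E) g z Ψ) {v : E₀} (hv : (chartAt E' z z, v) ∈ Ψ.target) :
    Ψ.symm (chartAt E' z z, v) ∈ g ⁻¹' {z} := by
  have h1 := Ψ.map_target hv
  have h2 := h.fst _ h1
  rw [Ψ.right_inv hv] at h2
  exact ((chartAt E' z).injOn (mem_chart_source E' z) (h.mem _ h1) h2).symm

open Classical in
/-- the chart of the fibre -/
def Slc.chart (h : Slc (E := E) g z Ψ) (s₀ : g ⁻¹' {z}) : OpenPartialHomeomorph (g ⁻¹' {z}) E₀ where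
  toFun s := (Ψ s.1).2
  invFun v := if hv : (chartAt E' z z, v) ∈ Ψ.target then ⟨_, h.mem_fib hv⟩ else s₀
  source := {s | s.1 ∈ Ψ.source}
  target := {v | (chartAt E' z z, v) ∈ Ψ.target}
  map_source' s hs := by
    show (chartAt E' z z, (Ψ s.1).2) ∈ Ψ.target
    rw [← h.apply s hs]
    exact Ψ.map_source hs
  map_target' v hv := by
    have hv' : (chartAt E' z z, v) ∈ Ψ.target := hv
    show ((if hv : (chartAt E' z z, v) ∈ Ψ.target then ⟨_, h.mem_fib hv⟩ else s₀ :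
      g ⁻¹' {z}) : X) ∈ Ψ.source
    rw [dif_pos hv']
    exact Ψ.map_target hv'
  left_inv' s hs := by
    have hs' : s.1 ∈ Ψ.source := hs
    have h1 : (chartAt E' z z, (Ψ s.1).2) ∈ Ψ.target := by
      rw [← h.apply s hs]
      exact Ψ.map_source hs
    refine Subtype.ext ?_
    simp only [dif_pos h1]
    rw [← h.apply s hs, Ψ.left_inv hs']
  right_inv' v hv := by
    have hv' : (chartAt E' z z, v) ∈ Ψ.target := hv
    simp only [dif_pos hv']
    rw [Ψ.right_inv hv']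
  open_source := Ψ.open_source.preimage continuous_subtype_val
  open_target := Ψ.open_target.preimage (by fun_prop : Continuous fun v : E₀ => (chartAt E' z z, v))
  continuousOn_toFun := by
    refine continuousOn_iff_continuous_domRestrict.2 ?_
    rw [continuous_iff_continuousAt]
    rintro ⟨s, hs⟩
    have h1 : ContinuousAt Ψ s.1 := Ψ.continuousAt hs
    exact continuousAt_snd.comp (ContinuousAt.comp (g := Ψ)
      (f := fun q : {s : g ⁻¹' {z} | s.1 ∈ Ψ.source} => (q : g ⁻¹' {z}).1) h1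
      (continuous_subtype_val.comp continuous_subtype_val).continuousAt)
  continuousOn_invFun := by
    intro v hv
    have hv' : (chartAt E' z z, v) ∈ Ψ.target := hv
    refine ContinuousAt.continuousWithinAt ?_
    rw [Topology.IsInducing.subtypeVal.continuousAt_iff]
    have h1 : ContinuousAt (fun v : E₀ => Ψ.symm (chartAt E' z z, v)) v :=
      ContinuousAt.comp (g := Ψ.symm) (Ψ.symm.continuousAt hv')
        (by fun_prop : Continuous fun v : E₀ => (chartAt E' z z, v)).continuousAt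
    refine h1.congr ?_
    have hO : IsOpen {v : E₀ | (chartAt E' z z, v) ∈ Ψ.target} :=
      Ψ.open_target.preimage (by fun_prop : Continuous fun v : E₀ => (chartAt E' z z, v))
    filter_upwards [hO.mem_nhds hv'] with v' hv''
    have hv3 : (chartAt E' z z, v') ∈ Ψ.target := hv''
    simp only [Function.comp_apply, dif_pos hv3]

theorem Slc.chart_apply (h : Slc (E := E) g z Ψ) (s₀ s : g ⁻¹' {z}) :
    h.chart s₀ s = (Ψ s.1).2 := rfl

theorem Slc.chart_source (h : Slc (E := E) g z Ψ) (s₀ : g ⁻¹' {z}) :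
    (h.chart s₀).source = {s | s.1 ∈ Ψ.source} := rfl

theorem Slc.chart_target (h : Slc (E := E) g z Ψ) (s₀ : g ⁻¹' {z}) :
    (h.chart s₀).target = {v | (chartAt E' z z, v) ∈ Ψ.target} := rfl

theorem Slc.chart_symm (h : Slc (E := E) g z Ψ) (s₀ : g ⁻¹' {z}) {v : E₀}
    (hv : (chartAt E' z z, v) ∈ Ψ.target) :
    ((h.chart s₀).symm v : X) = Ψ.symm (chartAt E' z z, v) := by
  classical
  have h1 : (h.chart s₀).symm v =
      if hv : (chartAt E' z z, v) ∈ Ψ.target then ⟨_, h.mem_fib hv⟩ else s₀ := by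
    unfold Slc.chart
    rfl
  rw [h1, dif_pos hv]

/-- **W2-A**: the fibre of a submersion is a complex manifold. -/
theorem exists_level [IsManifold 𝓘(ℂ, E) ω X]
    (hn : Module.finrank ℂ E = Module.finrank ℂ E' + Module.finrank ℂ E₀)
    {g : X → Z} {z : Z} (hg : ContMDiff 𝓘(ℂ, E) 𝓘(ℂ, E') ω g)
    (hsub : ∀ x, g x = z → Function.Surjective (mfderiv 𝓘(ℂ, E) 𝓘(ℂ, E') g x)) :
    ∃ _ : ChartedSpace E₀ (g ⁻¹' {z}), IsManifold 𝓘(ℂ, E₀) ω (g ⁻¹' {z}) ∧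
      ContMDiff 𝓘(ℂ, E₀) 𝓘(ℂ, E) ω (Subtype.val : g ⁻¹' {z} → X) ∧
      ∀ s, Function.Injective (mfderiv 𝓘(ℂ, E₀) 𝓘(ℂ, E) (Subtype.val : g ⁻¹' {z} → X) s) := by
  classical
  have h1 : ∀ s : g ⁻¹' {z}, ∃ Ψ : OpenPartialHomeomorph X (E' × E₀), s.1 ∈ Ψ.source ∧
      Slc (E := E) g z Ψ := by
    intro s
    obtain ⟨Ψ, h1, h2⟩ := exists_slc (E₀ := E₀) hn hg (hsub s.1 s.2)
    have h3 : g s.1 = z := s.2
    rw [h3] at h2
    exact ⟨Ψ, h1, h2⟩
  choose Ψ hΨs hΨ using h1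
  let cs : ChartedSpace E₀ (g ⁻¹' {z}) :=
    { atlas := range fun s => (hΨ s).chart s
      chartAt := fun s => (hΨ s).chart s
      mem_chart_source := fun s => hΨs s
      chart_mem_atlas := fun s => mem_range_self s }
  have hsymm : ∀ s, ∀ v, (chartAt E' z z, v) ∈ (Ψ s).target →
      ContMDiffAt 𝓘(ℂ, E₀) 𝓘(ℂ, E) ω (fun v : E₀ => (Ψ s).symm (chartAt E' z z, v)) v := by
    intro s v hv
    have e1 : ContDiffAt ℂ ω (fun v : E₀ => (chartAt E' z z, v)) v := by fun_prop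
    exact ContMDiffAt.comp v (g := (Ψ s).symm) (f := fun v : E₀ => (chartAt E' z z, v))
      ((hΨ s).hol_symm _ hv) e1.contMDiffAt
  have hsnd : ∀ s, ∀ x ∈ (Ψ s).source, ContMDiffAt 𝓘(ℂ, E) 𝓘(ℂ, E₀) ω (fun x => (Ψ s x).2) x := by
    intro s x hx
    exact ContMDiffAt.comp x (g := fun w : E' × E₀ => w.2) (f := Ψ s)
      (contDiff_snd.contDiffAt.contMDiffAt) ((hΨ s).hol x hx)
  have hman : IsManifold 𝓘(ℂ, E₀) ω (g ⁻¹' {z}) := by
    refine isManifold_of_contDiffOn _ _ _ ?_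
    rintro _ _ ⟨s, rfl⟩ ⟨s', rfl⟩ v hv
    simp only [mfld_simps] at hv ⊢
    refine ContDiffAt.contDiffWithinAt ?_
    have hv1 : (chartAt E' z z, v) ∈ (Ψ s).target := hv.1
    have hv2 : ((hΨ s).chart s).symm v ∈ ((hΨ s').chart s').source := hv.2
    have hv3 : (Ψ s).symm (chartAt E' z z, v) ∈ (Ψ s').source := by
      rw [← (hΨ s).chart_symm s hv1]
      exact hv2
    have e1 : ContMDiffAt 𝓘(ℂ, E₀) 𝓘(ℂ, E₀) ω
        (fun v : E₀ => (Ψ s' ((Ψ s).symm (chartAt E' z z, v))).2) v :=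
      ContMDiffAt.comp v (g := fun x => (Ψ s' x).2)
        (f := fun v : E₀ => (Ψ s).symm (chartAt E' z z, v)) (hsnd s' _ hv3) (hsymm s v hv1)
    refine e1.contDiffAt.congr_of_eventuallyEq ?_
    have hO : IsOpen {v : E₀ | (chartAt E' z z, v) ∈ (Ψ s).target} :=
      (Ψ s).open_target.preimage (by fun_prop : Continuous fun v : E₀ => (chartAt E' z z, v))
    filter_upwards [hO.mem_nhds hv1] with v' hv'
    show (Ψ s' (((hΨ s).chart s).symm v' : X)).2 = _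
    rw [(hΨ s).chart_symm s hv']
  have hval : ContMDiff 𝓘(ℂ, E₀) 𝓘(ℂ, E) ω (Subtype.val : g ⁻¹' {z} → X) := by
    intro s
    have e1 : ContMDiffAt 𝓘(ℂ, E₀) 𝓘(ℂ, E₀) ω ((hΨ s).chart s) s :=
      (contMDiffOn_chart (I := 𝓘(ℂ, E₀)) (n := ω) (x := s)).contMDiffAt
        ((chartAt E₀ s).open_source.mem_nhds (mem_chart_source E₀ s))
    have e0 : (chartAt E' z z, (Ψ s s.1).2) ∈ (Ψ s).target := by
      rw [← (hΨ s).apply s (hΨs s)]
      exact (Ψ s).map_source (hΨs s)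
    have e2 : ContMDiffAt 𝓘(ℂ, E₀) 𝓘(ℂ, E) ω
        (fun s' : g ⁻¹' {z} => (Ψ s).symm (chartAt E' z z, (hΨ s).chart s s')) s :=
      ContMDiffAt.comp s (g := fun v : E₀ => (Ψ s).symm (chartAt E' z z, v))
        (f := (hΨ s).chart s) (hsymm s _ e0) e1
    refine e2.congr_of_eventuallyEq ?_
    filter_upwards [((Ψ s).open_source.preimage continuous_subtype_val).mem_nhds (hΨs s)]
      with s' hs'
    have hs'' : s'.1 ∈ (Ψ s).source := hs'
    show s'.1 = (Ψ s).symm (chartAt E' z z, (Ψ s s'.1).2)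
    rw [← (hΨ s).apply s' hs'', (Ψ s).left_inv hs'']
  refine ⟨cs, hman, hval, fun s => ?_⟩
  -- `chart ∘ val` is the chart of the fibre, whose derivative is the identity
  have e1 : MDifferentiableAt 𝓘(ℂ, E₀) 𝓘(ℂ, E) (Subtype.val : g ⁻¹' {z} → X) s :=
    (hval s).mdifferentiableAt (by simp)
  have e2 : MDifferentiableAt 𝓘(ℂ, E) 𝓘(ℂ, E₀) (fun x => (Ψ s x).2) s.1 :=
    (hsnd s _ (hΨs s)).mdifferentiableAt (by simp)
  have e3 : ContMDiffAt 𝓘(ℂ, E₀) 𝓘(ℂ, E₀) ω (chartAt E₀ s) s :=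
    (contMDiffOn_chart (I := 𝓘(ℂ, E₀)) (n := ω) (x := s)).contMDiffAt
      ((chartAt E₀ s).open_source.mem_nhds (mem_chart_source E₀ s))
  have e4 : mfderiv 𝓘(ℂ, E₀) 𝓘(ℂ, E₀) (chartAt E₀ s) s = ContinuousLinearMap.id ℂ E₀ := by
    rw [mfderiv_loc (e3.mdifferentiableAt (by simp))]
    have e5 : (fun u => chartAt E₀ (chartAt E₀ s s) (chartAt E₀ s ((chartAt E₀ s).symm u)))
        =ᶠ[𝓝 (chartAt E₀ s s)] id := by
      filter_upwards [(chartAt E₀ s).open_target.mem_nhds (mem_chart_target E₀ s)] with u hu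
      simp only [chartAt_self_eq, OpenPartialHomeomorph.refl_apply, id]
      exact (chartAt E₀ s).right_inv hu
    rw [e5.fderiv_eq, fderiv_id]
  have e6 : ∀ ξ : E₀, mfderiv 𝓘(ℂ, E) 𝓘(ℂ, E₀) (fun x => (Ψ s x).2) s.1
      (mfderiv 𝓘(ℂ, E₀) 𝓘(ℂ, E) (Subtype.val : g ⁻¹' {z} → X) s ξ) = ξ := by
    intro ξ
    have e7 := mfderiv_comp_apply s (g := fun x => (Ψ s x).2)
      (f := (Subtype.val : g ⁻¹' {z} → X)) e2 e1 ξ
    rw [← e7]
    have e8 : (fun x => (Ψ s x).2) ∘ (Subtype.val : g ⁻¹' {z} → X) = chartAt E₀ s := rfl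
    rw [e8, e4]
    rfl
  exact Function.LeftInverse.injective e6

end

end Vale.Agent.P281.H740
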