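import Vale.Agent.P281.H740.TW.Easy
import Vale.Agent.P281.H737.TW.Restr

/-!
# P281, project T-W (helper740), block W2: easy addition
-/

noncomputable section

namespace Vale.Agent.P281.H740

/-- **W2-B** -/
theorem restrStmt : RestrStmt := by
  intro n c d N j X F G _ _ _ _ _ _ _ _ i Δ ι W h1 h2 h3 h4 h5 m k σ h6 h7 h8 s₀ h9 h10 h11 h12
  exact H737.TW.restrict_kod h1 h2 h3 h4 h5 h6 h7 h8 s₀ h9 h10 h11 h12

/-- **W2** (easy addition), from generic smoothness. -/
theorem easy (crit : H64.Gen.CritStmt) : H64.TW.EasyStmt := easy_of crit restrStmt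

end Vale.Agent.P281.H740
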