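import Vale.Agent.P281.H64.TW.Stat
import Vale.Agent.P281.H740.TW.EasyFin

/-!
# P281, project T-W (helper740): towers with arbitrary top storey

If the storeys below the top are of log general type, then the inequality for towers is the inequality
of Q1, by easy addition.
-/

open Set Filter Vale.Agent.P281
open Vale.Agent.P281.H713.TZ.S
open Vale.Agent.P281.H511.Surf (IsFibration)
open Vale.Agent.P281.H64.Thin (IsThinSet)
open Vale.Agent.P281.H64.StatV (NoExc ExcOne IsModel Kahler CovRank Cond)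
open Vale.Agent.P281.H64.TW (Tower FibGE EasyStmt)
open Vale.Agent.P281.H64.Gen (CritStmt)
open scoped Topology ContDiff Manifold

set_option linter.unusedSectionVars false

noncomputable section

namespace Vale.Agent.P281.H740

/-- The inequality for towers (`tower_le` of `H64/TW/Core.lean`). -/
def TowerLe : Prop :=
  ∀ {p k : ℕ} {X Y : Type} [TopologicalSpace Y] [ChartedSpace (Cm p) Y] [TopologicalSpace X]
    [ChartedSpace (Cm (p + k)) X] {f : X → Y} {Δ : Set X → ℝ} {a : WithBot ℕ∞},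
    Tower p k X f Δ a → IsFibration (Cm (p + k)) (Cm p) f Δ ∧
      a + kodF (p + k) p Δ (id : X → X) f ≤ kodX (Cm (p + k)) Δ

theorem easy_n (ea : EasyStmt) {n q c d : ℕ} (hn : n = q + c + d) {X Z Y : Type}
    [TopologicalSpace X] [ChartedSpace (Cm n) X] [TopologicalSpace Z]
    [ChartedSpace (Cm (q + c)) Z] [TopologicalSpace Y] [ChartedSpace (Cm q) Y]
    (g : X → Z) (h : Z → Y) (Δ : Set X → ℝ) (hg : IsFibration (Cm n) (Cm (q + c)) g Δ)
    (hh : IsFibration (Cm (q + c)) (Cm q) h (fun _ => 0)) (a : WithBot ℕ∞) (H : ℕ → Set Z)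
    (hH : ∀ k, IsThinSet (Cm (q + c)) (H k)) (hG : ∀ z, (∀ k, z ∉ H k) → ∀ (G : Type)
      [TopologicalSpace G] [T2Space G] [ChartedSpace (Cm d) G] (i : G → X),
      H511.Surf.IsFibre (Cm n) (Cm d) g z i → kodR (Cm n) (Cm d) i Δ ≤ a) :
    ∃ H' : ℕ → Set Y, (∀ k, IsThinSet (Cm q) (H' k)) ∧ ∀ y, (∀ k, y ∉ H' k) →
      ∀ (F : Type) [TopologicalSpace F] [T2Space F] [ChartedSpace (Cm (c + d)) F] (i : F → X),
        H511.Surf.IsFibre (Cm n) (Cm (c + d)) (fun x => h (g x)) y i → Function.Injective i →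
        kodR (Cm n) (Cm (c + d)) i Δ ≤ a + ((c : ℕ∞) : WithBot ℕ∞) := by
  subst hn
  exact ea q c d X Z Y g h Δ hg hh a H hH hG

theorem isSNC_zero {E : Type} [NormedAddCommGroup E] [NormedSpace ℂ E] {X : Type}
    [TopologicalSpace X] [ChartedSpace E X] : J.IsSNC E (fun _ : Set X => (0 : ℝ)) := by
  refine ⟨by simp, fun D hD => absurd rfl hD, fun D => ⟨0, by simp, le_rfl, zero_le_one⟩,
    fun x g _ φ => ⟨0, funext fun D => absurd rfl D.2.1⟩⟩

/-- the Kodaira dimension is at most the dimension -/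
theorem kodR_le {n d : ℕ} {X G : Type} [TopologicalSpace X] [ChartedSpace (Cm n) X]
    [TopologicalSpace G] [ChartedSpace (Cm d) G] (i : G → X) (Δ : Set X → ℝ) :
    kodR (Cm n) (Cm d) i Δ ≤ ((d : ℕ∞) : WithBot ℕ∞) := by
  unfold kodR J.kod
  refine iSup₂_le fun N hN => ?_
  obtain ⟨m, k, σ, t₁, -, -, -, -, -, h3⟩ := hN
  let L : Cm d →ₗ[ℂ] (Fin N → ℂ) := LinearMap.pi fun b : Fin N =>
    (J.dif (Cm d) (fun w => σ (b + 1) w / σ 0 w) t₁ : Cm d →ₗ[ℂ] ℂ)
  have hL : Function.Surjective L := h3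
  have h1 := LinearMap.finrank_le_finrank_of_surjective hL
  rw [Module.finrank_fin_fun, Module.finrank_fin_fun] at h1
  exact_mod_cast h1

/-- the Kodaira dimension is `⊥` or an integer -/
theorem kodR_lt {n d r : ℕ} {X G : Type} [TopologicalSpace X] [ChartedSpace (Cm n) X]
    [TopologicalSpace G] [ChartedSpace (Cm d) G] {i : G → X} {Δ : Set X → ℝ}
    (h : ¬ (((r + 1 : ℕ) : ℕ∞) : WithBot ℕ∞) ≤ kodR (Cm n) (Cm d) i Δ) :
    kodR (Cm n) (Cm d) i Δ ≤ ((r : ℕ∞) : WithBot ℕ∞) := by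
  rw [not_le] at h
  generalize kodR (Cm n) (Cm d) i Δ = K at h
  cases K with
  | bot => exact bot_le
  | coe K =>
    rw [WithBot.coe_lt_coe] at h
    rw [WithBot.coe_le_coe]
    have h2 : K < (r : ℕ∞) + 1 := by exact_mod_cast h
    exact (ENat.lt_add_one_iff (ENat.natCast_ne_top r)).1 h2

theorem kodR_bot {n d : ℕ} {X G : Type} [TopologicalSpace X] [ChartedSpace (Cm n) X]
    [TopologicalSpace G] [ChartedSpace (Cm d) G] {i : G → X} {Δ : Set X → ℝ}
    (h : ¬ (((0 : ℕ) : ℕ∞) : WithBot ℕ∞) ≤ kodR (Cm n) (Cm d) i Δ) :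
    kodR (Cm n) (Cm d) i Δ ≤ ⊥ := by
  rw [not_le] at h
  generalize kodR (Cm n) (Cm d) i Δ = K at h
  cases K with
  | bot => exact le_rfl
  | coe K =>
    rw [WithBot.coe_lt_coe] at h
    exact absurd h (by simp)

/-- a bound for the very general fibres of `g` -/
theorem not_fibGE {n p d : ℕ} {X Z : Type} [TopologicalSpace X] [ChartedSpace (Cm n) X]
    [TopologicalSpace Z] [ChartedSpace (Cm p) Z] [IsManifold 𝓘(ℂ, Cm p) ω Z] {g : X → Z} {Δ : Set X → ℝ} {a : WithBot ℕ∞}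
    (hcond : d = 1 ∨ Kahler n X ∧ ∃ H : ℕ → Set Z, (∀ j, IsThinSet (Cm p) (H j)) ∧
      ∀ z, (∀ j, z ∉ H j) → ∀ (G : Type) [TopologicalSpace G] [T2Space G]
        [ChartedSpace (Cm d) G] (i : G → X), H511.Surf.IsFibre (Cm n) (Cm d) g z i →
        Cond n d i Δ True)
    (h : ¬ FibGE n p d g Δ a) : ∃ H : ℕ → Set Z, (∀ j, IsThinSet (Cm p) (H j)) ∧
      ∀ z, (∀ j, z ∉ H j) → ∀ (G : Type) [TopologicalSpace G] [T2Space G]
        [ChartedSpace (Cm d) G] (i : G → X), H511.Surf.IsFibre (Cm n) (Cm d) g z i →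
        ¬ a ≤ kodR (Cm n) (Cm d) i Δ := by
  unfold FibGE at h
  push Not at h
  obtain ⟨H, hH, hz⟩ := h
  rcases hcond with h1 | ⟨hK, H₂, hH₂, hz₂⟩
  · exact ⟨H, hH, fun z hzH G _ _ _ i hi hle =>
      ((hz z hzH G inferInstance inferInstance inferInstance i hi).1 hle).1 h1⟩
  · refine ⟨fun j => H j ∪ H₂ j, fun j => H64.Thin.IsThinSet.union (hH j) (hH₂ j),
      fun z hzH G _ _ _ i hi hle => ?_⟩
    have e1 : ∀ j, z ∉ H j := fun j h => hzH j (Or.inl h)
    have e2 : ∀ j, z ∉ H₂ j := fun j h => hzH j (Or.inr h)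
    exact ((hz z e1 G inferInstance inferInstance inferInstance i hi).1 hle).2 hK
      (hz₂ z e2 G i hi)

/-- the Kodaira dimension of the very general fibres of `g`: either no pluricanonical section, or a
number `r` for which both bounds hold -/
theorem exists_kod {n p d : ℕ} {X Z : Type} [TopologicalSpace X] [ChartedSpace (Cm n) X]
    [TopologicalSpace Z] [ChartedSpace (Cm p) Z] [IsManifold 𝓘(ℂ, Cm p) ω Z] {g : X → Z}
    {Δ : Set X → ℝ}
    (hcond : d = 1 ∨ Kahler n X ∧ ∃ H : ℕ → Set Z, (∀ j, IsThinSet (Cm p) (H j)) ∧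
      ∀ z, (∀ j, z ∉ H j) → ∀ (G : Type) [TopologicalSpace G] [T2Space G]
        [ChartedSpace (Cm d) G] (i : G → X), H511.Surf.IsFibre (Cm n) (Cm d) g z i →
        Cond n d i Δ True) :
    ∃ a : WithBot ℕ∞, (a = ⊥ ∨ FibGE n p d g Δ a) ∧ ∃ H : ℕ → Set Z,
      (∀ j, IsThinSet (Cm p) (H j)) ∧ ∀ z, (∀ j, z ∉ H j) → ∀ (G : Type) [TopologicalSpace G]
        [T2Space G] [ChartedSpace (Cm d) G] (i : G → X),
        H511.Surf.IsFibre (Cm n) (Cm d) g z i → kodR (Cm n) (Cm d) i Δ ≤ a := by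
  classical
  by_cases h : ∃ r : ℕ, r ≤ d ∧ FibGE n p d g Δ ((r : ℕ∞) : WithBot ℕ∞)
  · -- the largest `r ≤ d`
    let P : ℕ → Prop := fun r => FibGE n p d g Δ ((r : ℕ∞) : WithBot ℕ∞)
    obtain ⟨r₀, hr₀, hP₀⟩ := h
    have hmax : P (Nat.findGreatest P d) := Nat.findGreatest_spec (P := P) hr₀ hP₀
    have hle : Nat.findGreatest P d ≤ d := Nat.findGreatest_le d
    have hgt : ∀ k, Nat.findGreatest P d < k → k ≤ d → ¬ P k := fun k h1 h2 =>
      Nat.findGreatest_is_greatest h1 h2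
    generalize Nat.findGreatest P d = r at hmax hle hgt
    refine ⟨((r : ℕ∞) : WithBot ℕ∞), Or.inr hmax, ?_⟩
    rcases hle.eq_or_lt with h1 | h1
    · subst h1
      refine ⟨fun _ => ∅, fun _ => ?_, fun z _ G _ _ _ i hi => kodR_le i Δ⟩
      refine ⟨isClosed_empty, fun y => ⟨fun _ => 1, contMDiffAt_const, fun h => ?_,
        Filter.Eventually.of_forall fun z hz => hz.elim⟩⟩
      exact one_ne_zero h.self_of_nhds
    · obtain ⟨H, hH, hz⟩ := not_fibGE hcond (hgt (r + 1) (Nat.lt_succ_self r) h1)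
      exact ⟨H, hH, fun z hzH G _ _ _ i hi => kodR_lt (hz z hzH G i hi)⟩
  · have h0 : ¬ FibGE n p d g Δ (((0 : ℕ) : ℕ∞) : WithBot ℕ∞) := fun h0 =>
      h ⟨0, Nat.zero_le d, h0⟩
    obtain ⟨H, hH, hz⟩ := not_fibGE hcond h0
    exact ⟨⊥, Or.inl rfl, H, hH, fun z hzH G _ _ _ i hi => kodR_bot (hz z hzH G i hi)⟩

/-- **Towers with an arbitrary top storey.** Let `g : X → Z` be a fibration without exceptional
divisors (or with exceptional divisors of coefficient one and SNC orbifold base), of relative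
dimension one (or, `X` being Kähler, with fibres satisfying `Cond`), and let
`h : (Z, B(g, Δ)) → Y` be a tower of fibrations whose orbifold fibres are of log general type. Then
`κ(F, K_F + Δ|F) + kodF (h ∘ g) ≤ κ(X, K_X + Δ)` for the very general fibres `F` of `h ∘ g`. -/
theorem tower_q1 (ea : EasyStmt) (tl : TowerLe) {p k d : ℕ} (hd : 0 < d) {X Z Y : Type}
    [TopologicalSpace X] [ChartedSpace (Cm (p + (k + d))) X] [TopologicalSpace Z]
    [ChartedSpace (Cm (p + k)) Z] [TopologicalSpace Y] [ChartedSpace (Cm p) Y] {g : X → Z}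
    {h : Z → Y} {Δ : Set X → ℝ}
    (hg : IsFibration (Cm (p + (k + d))) (Cm (p + k)) g Δ)
    (he : NoExc (p + (k + d)) (p + k) g ∨ ExcOne (p + (k + d)) (p + k) g Δ)
    (hcond : d = 1 ∨ Kahler (p + (k + d)) X ∧ ∃ H : ℕ → Set Z,
      (∀ j, IsThinSet (Cm (p + k)) (H j)) ∧ ∀ z, (∀ j, z ∉ H j) → ∀ (G : Type)
        [TopologicalSpace G] [T2Space G] [ChartedSpace (Cm d) G] (i : G → X),
        H511.Surf.IsFibre (Cm (p + (k + d))) (Cm d) g z i → Cond (p + (k + d)) d i Δ True)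
    (hb : Tower p k Z h (base (Cm (p + (k + d))) (Cm (p + k)) g Δ)
      ((k : ℕ∞) : WithBot ℕ∞)) :
    ∃ H : ℕ → Set Y, (∀ j, IsThinSet (Cm p) (H j)) ∧ ∀ y, (∀ j, y ∉ H j) →
      ∀ (F : Type) [TopologicalSpace F] [T2Space F] [ChartedSpace (Cm (k + d)) F] (i : F → X),
        H511.Surf.IsFibre (Cm (p + (k + d))) (Cm (k + d)) (fun x => h (g x)) y i →
        Function.Injective i →
        kodR (Cm (p + (k + d))) (Cm (k + d)) i Δ +
            kodF (p + (k + d)) p Δ (id : X → X) (fun x => h (g x)) ≤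
          kodX (Cm (p + (k + d))) Δ := by
  have : IsManifold 𝓘(ℂ, Cm (p + k)) ω Z := hg.manifold.2
  obtain ⟨a, ha, H, hH, hz⟩ := exists_kod (g := g) (Δ := Δ) hcond
  have hh := (tl hb).1
  have hh0 : IsFibration (Cm (p + k)) (Cm p) h (fun _ => 0) :=
    ⟨hh.hausdorff, hh.compact, hh.connected, hh.manifold, hh.hol, hh.fibres, isSNC_zero⟩
  obtain ⟨H', hH', hy⟩ := easy_n ea (Nat.add_assoc p k d).symm g h Δ hg hh0 a H hH hz
  refine ⟨H', hH', fun y hyH F _ _ _ i hi hinj => ?_⟩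
  have h1 := hy y hyH F i hi hinj
  rcases ha with rfl | ha
  · rw [WithBot.bot_add, le_bot_iff] at h1
    rw [h1, WithBot.bot_add]
    exact bot_le
  · have h2 := (tl (Tower.step k d X Z g h Δ a _ hd hg he ha hb)).2
    exact (add_le_add h1 le_rfl).trans h2

end Vale.Agent.P281.H740
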