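import Vale.Agent.P281.H740.TW.Level

/-!
# P281, project T-W (helper740), block W2: maps of fibres, normal coordinates
-/

open Set Filter
open scoped Topology ContDiff Manifold

set_option linter.unusedSectionVars false

noncomputable section

namespace Vale.Agent.P281.H740

theorem mfderiv_chart_self {E : Type} [NormedAddCommGroup E] [NormedSpace ℂ E] {X : Type}
    [TopologicalSpace X] [ChartedSpace E X] [IsManifold 𝓘(ℂ, E) ω X] (x : X) :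
    ContMDiffAt 𝓘(ℂ, E) 𝓘(ℂ, E) ω (chartAt E x) x ∧
      mfderiv 𝓘(ℂ, E) 𝓘(ℂ, E) (chartAt E x) x = ContinuousLinearMap.id ℂ E := by
  have e3 : ContMDiffAt 𝓘(ℂ, E) 𝓘(ℂ, E) ω (chartAt E x) x :=
    (contMDiffOn_chart (I := 𝓘(ℂ, E)) (n := ω) (x := x)).contMDiffAt
      ((chartAt E x).open_source.mem_nhds (mem_chart_source E x))
  refine ⟨e3, ?_⟩
  rw [mfderiv_loc (e3.mdifferentiableAt (by simp))]
  have e5 : (fun u => chartAt E (chartAt E x x) (chartAt E x ((chartAt E x).symm u)))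
      =ᶠ[𝓝 (chartAt E x x)] id := by
    filter_upwards [(chartAt E x).open_target.mem_nhds (mem_chart_target E x)] with u hu
    simp only [chartAt_self_eq, OpenPartialHomeomorph.refl_apply, id]
    exact (chartAt E x).right_inv hu
  rw [e5.fderiv_eq, fderiv_id]

variable {E E' E'' E₀ E₁ : Type} [NormedAddCommGroup E] [NormedSpace ℂ E] [NormedAddCommGroup E']
  [NormedSpace ℂ E'] [NormedAddCommGroup E''] [NormedSpace ℂ E''] [NormedAddCommGroup E₀]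
  [NormedSpace ℂ E₀] [NormedAddCommGroup E₁] [NormedSpace ℂ E₁] [FiniteDimensional ℂ E]
  [FiniteDimensional ℂ E'] [FiniteDimensional ℂ E''] [FiniteDimensional ℂ E₀]
  [FiniteDimensional ℂ E₁]

theorem exists_pre (hn : Module.finrank ℂ E = Module.finrank ℂ E' + Module.finrank ℂ E₀)
    {A : E →L[ℂ] E'} {B : E₀ →L[ℂ] E} (hA : Function.Surjective A) (hB : Function.Injective B)
    (hAB : ∀ ξ, A (B ξ) = 0) {ξ : E} (hξ : A ξ = 0) : ∃ η, B η = ξ := by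
  obtain ⟨L, G, hL, hG⟩ := exists_lin hn hA hB hAB
  refine ⟨L ξ, G.injective ?_⟩
  have h1 : ∀ v, G v = (A v, L v) := fun v => congrArg (fun T : E →L[ℂ] E' × E₀ => T v) hG
  rw [h1, h1, hAB, hL, hξ]

variable {X Y Z F G : Type} [TopologicalSpace X] [ChartedSpace E X] [IsManifold 𝓘(ℂ, E) ω X]
  [TopologicalSpace Y] [ChartedSpace E' Y] [TopologicalSpace Z] [ChartedSpace E'' Z]
  [TopologicalSpace F] [ChartedSpace E₀ F] [IsManifold 𝓘(ℂ, E₀) ω F]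
  [TopologicalSpace G] [ChartedSpace E₁ G]

theorem comp_zero {f : X → Y} {i : F → X} {y : Y} (hf : ContMDiff 𝓘(ℂ, E) 𝓘(ℂ, E') ω f)
    (hi : ContMDiff 𝓘(ℂ, E₀) 𝓘(ℂ, E) ω i) (hfi : ∀ t, f (i t) = y) (t : F) (ξ : E₀) :
    mfderiv 𝓘(ℂ, E) 𝓘(ℂ, E') f (i t) (mfderiv 𝓘(ℂ, E₀) 𝓘(ℂ, E) i t ξ) = 0 := by
  have h1 := mfderiv_comp_apply t (g := f) (f := i)
    ((hf (i t)).mdifferentiableAt (by simp)) ((hi t).mdifferentiableAt (by simp)) ξ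
  have h2 : f ∘ i = fun _ => y := funext hfi
  rw [h2, mfderiv_const] at h1
  exact h1.symm

/-- a submanifold of a fibre is mapped holomorphically to the model `F` of this fibre -/
theorem exists_iota (hn : Module.finrank ℂ E = Module.finrank ℂ E' + Module.finrank ℂ E₀)
    {f : X → Y} {i : F → X} {y : Y} (hf : ContMDiff 𝓘(ℂ, E) 𝓘(ℂ, E') ω f)
    (hi : ContMDiff 𝓘(ℂ, E₀) 𝓘(ℂ, E) ω i)
    (hsub : ∀ x, f x = y → Function.Surjective (mfderiv 𝓘(ℂ, E) 𝓘(ℂ, E') f x))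
    (himm : ∀ t, Function.Injective (mfderiv 𝓘(ℂ, E₀) 𝓘(ℂ, E) i t)) (hfi : ∀ t, f (i t) = y)
    (hinj : Function.Injective i) (hsur : ∀ x, f x = y → ∃ t, i t = x) {v : G → X}
    (hv : ContMDiff 𝓘(ℂ, E₁) 𝓘(ℂ, E) ω v)
    (hvimm : ∀ s, Function.Injective (mfderiv 𝓘(ℂ, E₁) 𝓘(ℂ, E) v s)) (hfv : ∀ s, f (v s) = y) :
    ∃ ι : G → F, (∀ s, i (ι s) = v s) ∧ ContMDiff 𝓘(ℂ, E₁) 𝓘(ℂ, E₀) ω ι ∧
      ∀ s, Function.Injective (mfderiv 𝓘(ℂ, E₁) 𝓘(ℂ, E₀) ι s) := by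
  choose ι hι using fun s => hsur (v s) (hfv s)
  have hιc : ContMDiff 𝓘(ℂ, E₁) 𝓘(ℂ, E₀) ω ι := by
    intro s
    obtain ⟨ρ, hρ, hρ0, hρf⟩ := exists_retr hn hf hi (hsub _ (hfi (ι s))) (himm (ι s)) hfi
    rw [hι s] at hρ hρf
    refine (ContMDiffAt.comp s (g := ρ) (f := v) hρ (hv s)).congr_of_eventuallyEq ?_
    filter_upwards [hv.continuous.continuousAt.eventually hρf] with s' hs'
    refine hinj ?_
    show i (ι s') = i (ρ (v s'))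
    rw [hι, hs' (hfv s')]
  refine ⟨ι, hι, hιc, fun s => ?_⟩
  have h2 : i ∘ ι = v := funext hι
  intro ξ ξ' hξ
  refine hvimm s ?_
  have h1 : ∀ ξ, mfderiv 𝓘(ℂ, E₁) 𝓘(ℂ, E) v s ξ =
      mfderiv 𝓘(ℂ, E₀) 𝓘(ℂ, E) i (ι s) (mfderiv 𝓘(ℂ, E₁) 𝓘(ℂ, E₀) ι s ξ) := by
    intro ξ
    have h3 := mfderiv_comp_apply s (g := i) (f := ι) ((hi (ι s)).mdifferentiableAt (by simp))
      ((hιc s).mdifferentiableAt (by simp)) ξ
    rw [h2] at h3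
    exact h3
  rw [h1, h1, hξ]

/-- normal coordinates along the fibre of `g` over `z`, in the fibre of `h ∘ g` -/
theorem exists_normal [IsManifold 𝓘(ℂ, E'') ω Z] {V : Type} [NormedAddCommGroup V]
    [NormedSpace ℂ V] [FiniteDimensional ℂ V]
    (hn : Module.finrank ℂ E = Module.finrank ℂ E' + Module.finrank ℂ E₀)
    (hn' : Module.finrank ℂ E'' = Module.finrank ℂ E' + Module.finrank ℂ V)
    {g : X → Z} {h : Z → Y} {i : F → X} {y : Y} {z : Z}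
    (hg : ContMDiff 𝓘(ℂ, E) 𝓘(ℂ, E'') ω g) (hh : ContMDiff 𝓘(ℂ, E'') 𝓘(ℂ, E') ω h)
    (hi : ContMDiff 𝓘(ℂ, E₀) 𝓘(ℂ, E) ω i)
    (hgsub : ∀ x, g x = z → Function.Surjective (mfderiv 𝓘(ℂ, E) 𝓘(ℂ, E'') g x))
    (hhsub : Function.Surjective (mfderiv 𝓘(ℂ, E'') 𝓘(ℂ, E') h z))
    (himm : ∀ t, Function.Injective (mfderiv 𝓘(ℂ, E₀) 𝓘(ℂ, E) i t))
    (hfi : ∀ t, h (g (i t)) = y) :
    ∃ W : F → V, ∀ t, g (i t) = z → ContMDiffAt 𝓘(ℂ, E₀) 𝓘(ℂ, V) ω W t ∧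
      W t = W t ∧ (∀ t', g (i t') = z → W t' = W t) ∧
      Function.Surjective (mfderiv 𝓘(ℂ, E₀) 𝓘(ℂ, V) W t) := by
  obtain ⟨L, Q, hQ⟩ := exists_compl (E₀ := V) hn' hhsub
  refine ⟨fun t => L (chartAt E'' z (g (i t))), fun t ht => ?_⟩
  subst ht
  obtain ⟨hc, hcd⟩ := mfderiv_chart_self (E := E'') (g (i t))
  have hgi : ContMDiffAt 𝓘(ℂ, E₀) 𝓘(ℂ, E'') ω (fun t => g (i t)) t := (hg.comp hi) t
  have h1 : ContMDiffAt 𝓘(ℂ, E₀) 𝓘(ℂ, E'') ω (fun t' => chartAt E'' (g (i t)) (g (i t'))) t :=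
    ContMDiffAt.comp t (g := chartAt E'' (g (i t))) (f := fun t => g (i t)) hc hgi
  have hL : ContMDiffAt 𝓘(ℂ, E'') 𝓘(ℂ, V) ω L (chartAt E'' (g (i t)) (g (i t))) :=
    L.contDiff.contDiffAt.contMDiffAt
  refine ⟨ContMDiffAt.comp t (g := L) (f := fun t' => chartAt E'' (g (i t)) (g (i t'))) hL h1,
    rfl, fun t' ht' => by simp only [ht'], fun w => ?_⟩
  -- a tangent vector of `Z` in the kernel of `dh`
  have hQ1 : ∀ v, Q v = (mfderiv 𝓘(ℂ, E'') 𝓘(ℂ, E') h (g (i t)) v, L v) := fun v =>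
    congrArg (fun T : E'' →L[ℂ] E' × V => T v) hQ
  obtain ⟨ζ, hζ⟩ := Q.surjective ((0 : E'), w)
  rw [hQ1] at hζ
  have hζ1 : mfderiv 𝓘(ℂ, E'') 𝓘(ℂ, E') h (g (i t)) ζ = 0 := congrArg Prod.fst hζ
  have hζ2 : L ζ = w := congrArg Prod.snd hζ
  obtain ⟨ξ, hξ⟩ := hgsub (i t) rfl ζ
  have hfd : ∀ ξ : E, (mfderiv 𝓘(ℂ, E) 𝓘(ℂ, E') (fun x => h (g x)) (i t) ξ : E') =
      mfderiv 𝓘(ℂ, E'') 𝓘(ℂ, E') h (g (i t)) (mfderiv 𝓘(ℂ, E) 𝓘(ℂ, E'') g (i t) ξ) := fun ξ =>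
    mfderiv_comp_apply (i t) (g := h) (f := g) ((hh (g (i t))).mdifferentiableAt (by simp))
      ((hg (i t)).mdifferentiableAt (by simp)) ξ
  have hf : ContMDiff 𝓘(ℂ, E) 𝓘(ℂ, E') ω fun x => h (g x) := hh.comp hg
  have hA : Function.Surjective (mfderiv 𝓘(ℂ, E) 𝓘(ℂ, E') (fun x => h (g x)) (i t)) := by
    intro u
    obtain ⟨b, hb⟩ := hhsub u
    obtain ⟨a, ha⟩ := hgsub (i t) rfl b
    exact ⟨a, (hfd a).trans ((congrArg _ ha).trans hb)⟩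
  obtain ⟨η, hη⟩ := exists_pre hn hA (himm t) (fun η => comp_zero hf hi hfi t η)
    (ξ := ξ) ((hfd ξ).trans ((congrArg _ hξ).trans hζ1))
  refine ⟨η, ?_⟩
  have e1 := mfderiv_comp_apply t (g := L) (f := fun t' => chartAt E'' (g (i t)) (g (i t')))
    (hL.mdifferentiableAt (by simp)) (h1.mdifferentiableAt (by simp)) η
  have e2 := mfderiv_comp_apply t (g := chartAt E'' (g (i t))) (f := fun t' => g (i t'))
    (hc.mdifferentiableAt (by simp)) (hgi.mdifferentiableAt (by simp)) η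
  have e3 := mfderiv_comp_apply t (g := g) (f := i)
    ((hg (i t)).mdifferentiableAt (by simp)) ((hi t).mdifferentiableAt (by simp)) η
  have e4 : mfderiv 𝓘(ℂ, E'') 𝓘(ℂ, V) L (chartAt E'' (g (i t)) (g (i t))) = L := by
    rw [mfderiv_eq_fderiv]
    exact L.fderiv
  have e5 : mfderiv 𝓘(ℂ, E₀) 𝓘(ℂ, V) (fun t' => L (chartAt E'' (g (i t)) (g (i t')))) t η =
      L (mfderiv 𝓘(ℂ, E'') 𝓘(ℂ, E'') (chartAt E'' (g (i t))) (g (i t))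
        (mfderiv 𝓘(ℂ, E) 𝓘(ℂ, E'') g (i t) (mfderiv 𝓘(ℂ, E₀) 𝓘(ℂ, E) i t η))) := by
    have e8 : (mfderiv 𝓘(ℂ, E₀) 𝓘(ℂ, E'') (fun t' => chartAt E'' (g (i t)) (g (i t'))) t η : E'') =
        mfderiv 𝓘(ℂ, E'') 𝓘(ℂ, E'') (chartAt E'' (g (i t))) (g (i t))
          (mfderiv 𝓘(ℂ, E) 𝓘(ℂ, E'') g (i t) (mfderiv 𝓘(ℂ, E₀) 𝓘(ℂ, E) i t η)) :=
      e2.trans (congrArg (mfderiv 𝓘(ℂ, E'') 𝓘(ℂ, E'') (chartAt E'' (g (i t))) (g (i t))) e3)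
    have e9 : ∀ v : E'', (mfderiv 𝓘(ℂ, E'') 𝓘(ℂ, V) L (chartAt E'' (g (i t)) (g (i t))) v : V) =
        L v := fun v => congrArg (fun T : E'' →L[ℂ] V => T v) e4
    exact (e1.trans (e9 _)).trans (congrArg L e8)
  have e6 : ∀ v : E'', (mfderiv 𝓘(ℂ, E'') 𝓘(ℂ, E'') (chartAt E'' (g (i t))) (g (i t)) v : E'') = v :=
    fun v => congrArg (fun T : E'' →L[ℂ] E'' => T v) hcd
  refine e5.trans ((congrArg L (e6 _)).trans ?_)
  have e7 : (mfderiv 𝓘(ℂ, E) 𝓘(ℂ, E'') g (i t) (mfderiv 𝓘(ℂ, E₀) 𝓘(ℂ, E) i t η) : E'') = ζ :=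
    (congrArg (mfderiv 𝓘(ℂ, E) 𝓘(ℂ, E'') g (i t)) hη).trans hξ
  exact (congrArg L e7).trans hζ2

end Vale.Agent.P281.H740
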