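import Vale.Agent.P281.H713.TZ.S
import Vale.Agent.P281.Bdl.B1

/-!
# P281, project T-W (helper740), block W2: the conditions at the point in the definition of the
Kodaira dimension are open
-/

open Set Filter Vale.Agent.P281
open scoped Topology ContDiff Manifold

set_option linter.unusedSectionVars false

noncomputable section

namespace Vale.Agent.P281.H740

variable {n : ℕ} {E₀ : Type} [NormedAddCommGroup E₀] [NormedSpace ℂ E₀] [FiniteDimensional ℂ E₀]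
  {X F : Type} [TopologicalSpace X] [ChartedSpace (Fin n → ℂ) X] [IsManifold 𝓘(ℂ, Fin n → ℂ) ω X]
  [TopologicalSpace F] [ChartedSpace E₀ F] [IsManifold 𝓘(ℂ, E₀) ω F]

/-- the local equations of `i^* D` -/
def eqF (n : ℕ) {X F : Type} [TopologicalSpace X] [ChartedSpace (Fin n → ℂ) X]
    [TopologicalSpace F] (i : F → X) (D : Set X) (t : F) (g : F → ℂ) : Prop :=
  ∃ e, J.IsLocalEq (Fin n → ℂ) D e (i t) ∧ ∀ᶠ s in 𝓝 t, g s = e (i s)

theorem eqF.hol {i : F → X} (hi : ContMDiff 𝓘(ℂ, E₀) 𝓘(ℂ, Fin n → ℂ) ω i) {D : Set X} {t : F}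
    {g : F → ℂ} (h : eqF n i D t g) : HolV E₀ g t := by
  obtain ⟨e, ⟨V, hV, hx, h1, -, -⟩, h2⟩ := h
  exact ContMDiffAt.congr_of_eventuallyEq
    (ContMDiffAt.comp t (g := e) (f := i) (h1 _ hx) (hi t)) h2

theorem eqF.mem {i : F → X} {D : Set X} {t : F} {g : F → ℂ} (h : eqF n i D t g) :
    i t ∈ D ↔ g t = 0 := by
  obtain ⟨e, ⟨V, hV, hx, h1, h3, -⟩, h2⟩ := h
  rw [h2.self_of_nhds]
  exact h3 _ hx

/-- near a point off the boundary, sections are holomorphic multiples of the Jacobian. -/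
theorem section_loc {i : F → X} (hi : ContMDiff 𝓘(ℂ, E₀) 𝓘(ℂ, Fin n → ℂ) ω i) {m : ℕ}
    {k : Set X → ℕ} {s : F → ℂ} {z : F} (hs : J.IsSection E₀ (eqF n i) m k s)
    (hz : ∀ D, k D ≠ 0 → ∃ g, eqF n i D z g ∧ g z ≠ 0) :
    ∃ A : F → ℂ, HolV E₀ A z ∧ ∀ᶠ y in 𝓝 z, s y = A y * jac E₀ (chartAt E₀ z) y ^ m := by
  obtain ⟨T, g, a, hT, hg, ha, hev⟩ := hs z
  have hg0 : ∀ D ∈ T, k D ≠ 0 → g D z ≠ 0 := by
    intro D hD hk h0
    obtain ⟨g', hg', hne⟩ := hz D hk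
    exact hne (hg'.mem.1 ((hg D hD).mem.2 h0))
  have hQ : HolV E₀ (fun y => ∏ D ∈ T, g D y ^ k D) z :=
    HolV.prod fun D hD => ((hg D hD).hol hi).pow _
  have hQ0 : ∏ D ∈ T, g D z ^ k D ≠ 0 := by
    refine Finset.prod_ne_zero_iff.2 fun D hD => ?_
    by_cases hk : k D = 0
    · simp [hk]
    · exact pow_ne_zero _ (hg0 D hD hk)
  refine ⟨fun y => a y / ∏ D ∈ T, g D y ^ k D, HolV.div ha hQ hQ0, ?_⟩
  filter_upwards [hev, hQ.continuousAt.eventually_ne hQ0] with y hy hy0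
  have h1 : s y * ∏ D ∈ T, g D y ^ k D = a y * jac E₀ (chartAt E₀ z) y ^ m := hy hy0
  rw [div_mul_eq_mul_div, ← h1, mul_div_assoc, div_self hy0, mul_one]

/-- **openness** -/
theorem kod_open {i : F → X} (hi : ContMDiff 𝓘(ℂ, E₀) 𝓘(ℂ, Fin n → ℂ) ω i) {Δ : Set X → ℝ}
    (hΔ : {D | Δ D ≠ 0}.Finite) {m N : ℕ} {k : Set X → ℕ} {σ : ℕ → F → ℂ} {t₁ : F}
    (hk : ∀ D, (k D : ℝ) = m * Δ D) (hσ : ∀ b, J.IsSection E₀ (eqF n i) m k (σ b))
    (h1 : ∀ D, k D ≠ 0 → ∃ g, eqF n i D t₁ g ∧ g t₁ ≠ 0) (h2 : σ 0 t₁ ≠ 0)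
    (h3 : Function.Surjective fun (ξ : E₀) (b : Fin N) =>
      J.dif E₀ (fun w => σ (b + 1) w / σ 0 w) t₁ ξ) :
    ∀ᶠ t in 𝓝 t₁, (∀ D, k D ≠ 0 → ∃ g, eqF n i D t g ∧ g t ≠ 0) ∧ σ 0 t ≠ 0 ∧
      Function.Surjective fun (ξ : E₀) (b : Fin N) =>
        J.dif E₀ (fun w => σ (b + 1) w / σ 0 w) t ξ := by
  have hfin : {D | k D ≠ 0}.Finite := by
    refine hΔ.subset fun D hD h0 => hD ?_
    have h4 := hk D
    rw [h0, mul_zero] at h4
    exact_mod_cast h4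
  have e1 : ∀ᶠ t in 𝓝 t₁, ∀ D ∈ {D | k D ≠ 0}, ∃ g, eqF n i D t g ∧ g t ≠ 0 := by
    rw [eventually_all_finite hfin]
    intro D hD
    obtain ⟨g, hg, hg0⟩ := h1 D hD
    have hgc := (hg.hol hi).continuousAt.eventually_ne hg0
    obtain ⟨e, ⟨V, hV, hx, a1, a2, a3⟩, h5⟩ := hg
    filter_upwards [hgc, hi.continuous.continuousAt.eventually (hV.mem_nhds hx),
      eventually_eventually_nhds.2 h5] with t b1 b2 b3
    exact ⟨g, ⟨e, ⟨V, hV, b2, a1, a2, a3⟩, b3⟩, b1⟩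
  choose A hA hAev using fun b => section_loc hi (hσ b) h1
  have hs : t₁ ∈ (chartAt E₀ t₁).source := mem_chart_source E₀ t₁
  have hjac : ∀ᶠ y in 𝓝 t₁, jac E₀ (chartAt E₀ t₁) y ^ m ≠ 0 := by
    filter_upwards [(chartAt E₀ t₁).open_source.mem_nhds hs] with y hy
    exact pow_ne_zero _ (jac_chart_ne_zero hy)
  have hA0 : A 0 t₁ ≠ 0 := by
    intro h0
    have := (hAev 0).self_of_nhds
    rw [h0, zero_mul] at this
    exact h2 this
  have hA0ev : ∀ᶠ y in 𝓝 t₁, A 0 y ≠ 0 := (hA 0).continuousAt.eventually_ne hA0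
  have ht0ev : ∀ᶠ y in 𝓝 t₁, σ 0 y ≠ 0 := by
    filter_upwards [hAev 0, hjac, hA0ev] with y h1 h2 h3
    rw [h1]; exact mul_ne_zero h3 h2
  have hu : ∀ b : Fin N, HolV E₀ (fun w => σ (b + 1) w / σ 0 w) t₁ := by
    intro b
    refine HolV.congr (HolV.div (hA (b + 1)) (hA 0) hA0) ?_
    filter_upwards [hAev 0, hAev (b + 1), hjac] with y h1 h2 h3
    rw [h1, h2, mul_div_mul_right _ _ h3]
  have hind : LinearIndependent ℂ
      (fun b : Fin N => dif E₀ (fun w => σ (b + 1) w / σ 0 w) t₁) :=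
    JB.linearIndependent_of_surjective h3
  filter_upwards [e1, ht0ev, linearIndependent_dif_eventually hu hind] with t a1 a2 a3
  exact ⟨a1, a2, JB.surjective_of_linearIndependent a3⟩

end Vale.Agent.P281.H740
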