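import Vale.Agent.P281.H64.TW.Spec
import Vale.Agent.P281.H64.Thin.Core
import Vale.Agent.P281.H64.Gen.Spec
import Vale.Agent.P281.H125.TW.GenPos
import Vale.Agent.P281.H740.TL.FibL
import Vale.Agent.P281.H740.TW.Iota
import Vale.Agent.P281.H740.TW.Open

/-!
# P281, project T-W (helper740), block W2: easy addition
-/

open Set Filter Vale.Agent.P281
open Vale.Agent.P281.H511.Surf (IsFibration IsFibre)
open Vale.Agent.P281.H64.Thin (IsThinSet)
open Vale.Agent.P281.H64 (Cm IsProperFibration)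
open Vale.Agent.P281.H64.Gen (CritStmt)
open Vale.Agent.P281.H64.TW (EasyStmt)
open Vale.Agent.P281.H713
open scoped Topology ContDiff Manifold

set_option linter.unusedSectionVars false

noncomputable section

namespace Vale.Agent.P281.H740

/-- **W2-B** (helper737): restriction of pluricanonical sections. -/
def RestrStmt : Prop :=
  ∀ {n c d N j : ℕ} {X F G : Type} [TopologicalSpace X] [ChartedSpace (Cm n) X]
    [TopologicalSpace F] [ChartedSpace (Cm (c + d)) F] [IsManifold 𝓘(ℂ, Cm (c + d)) ω F]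
    [TopologicalSpace G] [ChartedSpace (Cm d) G] [IsManifold 𝓘(ℂ, Cm d) ω G] {i : F → X}
    {Δ : Set X → ℝ} {ι : G → F} {W : F → Cm c}
    (_ : ContMDiff 𝓘(ℂ, Cm d) 𝓘(ℂ, Cm (c + d)) ω ι)
    (_ : ∀ s, Function.Injective (mfderiv 𝓘(ℂ, Cm d) 𝓘(ℂ, Cm (c + d)) ι s))
    (_ : ∀ s, ContMDiffAt 𝓘(ℂ, Cm (c + d)) 𝓘(ℂ, Cm c) ω W (ι s))
    (_ : ∀ s s', W (ι s) = W (ι s'))
    (_ : ∀ s, Function.Surjective (mfderiv 𝓘(ℂ, Cm (c + d)) 𝓘(ℂ, Cm c) W (ι s)))
    {m : ℕ} {k : Set X → ℕ} {σ : ℕ → F → ℂ} (_ : 0 < m) (_ : ∀ D, (k D : ℝ) = m * Δ D)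
    (_ : ∀ b, J.IsSection (Cm (c + d)) (fun (D : Set X) t g => ∃ e, J.IsLocalEq (Cm n) D e (i t) ∧
      ∀ᶠ s in 𝓝 t, g s = e (i s)) m k (σ b)) (s₀ : G)
    (_ : ∀ D, k D ≠ 0 → ∃ g : F → ℂ, (∃ e, J.IsLocalEq (Cm n) D e (i (ι s₀)) ∧
      ∀ᶠ s in 𝓝 (ι s₀), g s = e (i s)) ∧ g (ι s₀) ≠ 0) (_ : σ 0 (ι s₀) ≠ 0)
    (_ : Function.Surjective fun (ξ : Cm (c + d)) (b : Fin N) =>
      J.dif (Cm (c + d)) (fun w => σ (b + 1) w / σ 0 w) (ι s₀) ξ) (_ : j ≤ N - c),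
    ((j : ℕ∞) : WithBot ℕ∞) ≤ TZ.S.kodR (Cm n) (Cm d) (fun s => i (ι s)) Δ

theorem genpos_n {n q c : ℕ} (hn : n = q + c) {Z Y : Type} [TopologicalSpace Z] [T2Space Z]
    [CompactSpace Z] [ChartedSpace (Cm n) Z] [IsManifold 𝓘(ℂ, Cm n) ω Z] [TopologicalSpace Y]
    [T2Space Y] [ChartedSpace (Cm q) Y] [IsManifold 𝓘(ℂ, Cm q) ω Y] (h : Z → Y)
    (hh : ContMDiff 𝓘(ℂ, Cm n) 𝓘(ℂ, Cm q) ω h) (S : Set Y)
    (hP : IsProperFibration (n := n) (p := q) h S) (H : ℕ → Set Z)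
    (hH : ∀ k, IsThinSet (Cm n) (H k)) :
    ∃ H' : ℕ → Set Y, (∀ k, IsThinSet (Cm q) (H' k)) ∧ ∀ y, y ∉ S → (∀ k, y ∉ H' k) →
      ∀ U : Set Z, IsOpen U → ∀ z₀ ∈ U, h z₀ = y → ∃ z ∈ U, h z = y ∧ ∀ k, z ∉ H k := by
  subst hn
  exact H125.TW.genpos q c h hh S hP H hH

/-- the composition of two fibrations is a fibration (as in `TW/Core`) -/
theorem comp_fib' {n p q : ℕ} {X Z Y : Type} [TopologicalSpace X] [ChartedSpace (Cm n) X]
    [TopologicalSpace Z] [ChartedSpace (Cm p) Z] [TopologicalSpace Y] [ChartedSpace (Cm q) Y]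
    {g : X → Z} {h : Z → Y} {Δ : Set X → ℝ} {Γ : Set Z → ℝ}
    (hg : IsFibration (Cm n) (Cm p) g Δ) (hh : IsFibration (Cm p) (Cm q) h Γ) :
    IsFibration (Cm n) (Cm q) (fun x => h (g x)) Δ := by
  have := hg.compact
  have := hg.hausdorff.1
  have := hg.hausdorff.2
  have := hh.hausdorff.2
  have hs : Function.Surjective g := fun z => (hg.fibres z).nonempty
  have hq : Topology.IsQuotientMap g :=
    hg.hol.continuous.isClosedMap.isQuotientMap hg.hol.continuous hs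
  refine ⟨⟨hg.hausdorff.1, hh.hausdorff.2⟩, hg.compact, hg.connected,
    ⟨hg.manifold.1, hh.manifold.2⟩, hh.hol.comp hg.hol, fun y => ?_, hg.snc⟩
  exact hq.isCoinducing.isConnected_preimage_of_isClosed hg.fibres
    (isClosed_singleton.preimage hh.hol.continuous) (hh.fibres y)

/-- the preimage of a thin set is thin -/
theorem thin_pre {n p : ℕ} {X Z : Type} [TopologicalSpace X] [PreconnectedSpace X]
    [ChartedSpace (Cm n) X] [IsManifold 𝓘(ℂ, Cm n) ω X] [TopologicalSpace Z]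
    [ChartedSpace (Cm p) Z] [IsManifold 𝓘(ℂ, Cm p) ω Z] {g : X → Z}
    (hg : ContMDiff 𝓘(ℂ, Cm n) 𝓘(ℂ, Cm p) ω g)
    (hs : ∃ x, Function.Surjective (mfderiv 𝓘(ℂ, Cm n) 𝓘(ℂ, Cm p) g x)) {T : Set Z}
    (hT : IsThinSet (Cm p) T) : IsThinSet (Cm n) (g ⁻¹' T) :=
  ⟨hT.1.preimage hg.continuous, fun x => H64.Thin.preimage_thin (fun z => hg z) hs hT x⟩

/-- the complement of countably many thin sets -/
theorem exists_notMem_thin {p : ℕ} {Z : Type} [TopologicalSpace Z] [T2Space Z] [CompactSpace Z]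
    [Nonempty Z] [ChartedSpace (Cm p) Z] [IsManifold 𝓘(ℂ, Cm p) ω Z] {H : ℕ → Set Z}
    (hH : ∀ k, IsThinSet (Cm p) (H k)) : ∃ z, ∀ k, z ∉ H k := by
  have h1 : Dense (⋂ k, (H k)ᶜ) := dense_iInter_of_isOpen_nat (fun k => (hH k).1.isOpen_compl)
    fun k => H64.Thin.IsThinSet.dense_compl (hH k)
  obtain ⟨z, hz⟩ := h1.nonempty
  exact ⟨z, fun k => mem_iInter.1 hz k⟩

/-- **W2**: easy addition. -/
theorem easy_of (crit : CritStmt) (restr : RestrStmt) : EasyStmt := by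
  intro q c d X Z Y _ _ _ _ _ _ g h Δ hg hh a H hH hG
  have : T2Space X := hg.hausdorff.1
  have : T2Space Z := hg.hausdorff.2
  have : T2Space Y := hh.hausdorff.2
  have : CompactSpace X := hg.compact
  have : CompactSpace Z := hh.compact
  have : ConnectedSpace X := hg.connected
  have : ConnectedSpace Z := hh.connected
  have : IsManifold 𝓘(ℂ, Cm (q + c + d)) ω X := hg.manifold.1
  have : IsManifold 𝓘(ℂ, Cm (q + c)) ω Z := hg.manifold.2
  have : IsManifold 𝓘(ℂ, Cm q) ω Y := hh.manifold.2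
  have hgs : Function.Surjective g := fun z => (hg.fibres z).nonempty
  have hf := comp_fib' hg hh
  obtain ⟨Sg, hSg, hPg⟩ := crit (q + c + d) (q + c) X Z g hg.hol hg.fibres
  obtain ⟨Sf, hSf, hPf⟩ := crit (q + c + d) q X Y (fun x => h (g x)) hf.hol hf.fibres
  obtain ⟨Kg, hKg, hsubg⟩ := hSg.2
  obtain ⟨Kf, hKf, hsubf⟩ := hSf.2
  have hPg' := hPg Sg subset_rfl hSg.1
  have hPf' := hPf Sf subset_rfl hSf.1
  -- a point where `g` is submersive
  have hex : ∃ x, Function.Surjective (mfderiv 𝓘(ℂ, Cm (q + c + d)) 𝓘(ℂ, Cm (q + c)) g x) := by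
    obtain ⟨z, hz⟩ := exists_notMem_thin hKg
    obtain ⟨x, hx⟩ := hgs z
    refine ⟨x, hPg'.submersive x fun h1 => ?_⟩
    rw [hx] at h1
    obtain ⟨k, hk⟩ := mem_iUnion.1 (hsubg h1)
    exact hz k hk
  obtain ⟨H', hH', hgen⟩ := genpos_n (Nat.add_assoc q c d) (fun x => h (g x)) hf.hol Sf hPf'
    (fun k => g ⁻¹' (H k) ∪ g ⁻¹' (Kg k)) fun k =>
      H64.Thin.IsThinSet.union (thin_pre hg.hol hex (hH k)) (thin_pre hg.hol hex (hKg k))
  refine ⟨fun k => H' k ∪ Kf k, fun k => H64.Thin.IsThinSet.union (hH' k) (hKf k),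
    fun y hy F _ _ _ i hi hinj => ?_⟩
  have hy1 : ∀ k, y ∉ H' k := fun k h1 => hy k (Or.inl h1)
  have hyS : y ∉ Sf := by
    intro h1
    obtain ⟨k, hk⟩ := mem_iUnion.1 (hsubf h1)
    exact hy k (Or.inr hk)
  have : CompactSpace F := hi.compact
  have : ConnectedSpace F := hi.connected
  have : Nonempty F := hi.connected.toNonempty
  have : IsManifold 𝓘(ℂ, Cm (c + d)) ω F := hi.manifold
  have hn : Module.finrank ℂ (Cm (q + c + d)) =
      Module.finrank ℂ (Cm q) + Module.finrank ℂ (Cm (c + d)) := by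
    simp only [Module.finrank_fin_fun]
    omega
  have hfsub : ∀ x, h (g x) = y → Function.Surjective
      (mfderiv 𝓘(ℂ, Cm (q + c + d)) 𝓘(ℂ, Cm q) (fun x => h (g x)) x) := fun x hx =>
    hPf'.submersive x (by rw [hx]; exact hyS)
  have hsur : ∀ x, h (g x) = y → ∃ t, i t = x := fun x hx =>
    surj_fib hn hf.hol hi.hol hfsub hi.immersion hi.fibre (hf.fibres y).isPreconnected hx
  unfold TZ.S.kodR J.kod
  refine iSup₂_le fun N hN => ?_
  obtain ⟨m, k, σ, t₁, hm, hk, hσ, h1, h2, h3⟩ := hN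
  have hopen := kod_open (N := N) hi.hol (Δ := Δ) hg.snc.1 hk hσ h1 h2 h3
  obtain ⟨ρ, hρ, hρ0, hρf⟩ := exists_retr hn hf.hol hi.hol (hfsub _ (hi.fibre t₁))
    (hi.immersion t₁) hi.fibre
  rw [← hρ0] at hopen
  have hU := (hρ.continuousAt.eventually hopen).and hρf
  obtain ⟨U, hU1, hU2, hU3⟩ := eventually_nhds_iff.1 hU
  obtain ⟨x, hxU, hxy, hxk⟩ := hgen y hyS hy1 U hU2 (i t₁) hU3 (hi.fibre t₁)
  obtain ⟨⟨b1, b2, b3⟩, b4⟩ := hU1 x hxU
  have hix : i (ρ x) = x := b4 hxy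
  -- the fibre of `g`
  have hzS : g x ∉ Sg := by
    intro h1
    obtain ⟨k, hk⟩ := mem_iUnion.1 (hsubg h1)
    exact hxk k (Or.inr hk)
  have hzH : ∀ k, g x ∉ H k := fun k h1 => hxk k (Or.inl h1)
  have hgsub : ∀ x', g x' = g x → Function.Surjective
      (mfderiv 𝓘(ℂ, Cm (q + c + d)) 𝓘(ℂ, Cm (q + c)) g x') := fun x' hx' =>
    hPg'.submersive x' (by rw [hx']; exact hzS)
  have hn2 : Module.finrank ℂ (Cm (q + c + d)) =
      Module.finrank ℂ (Cm (q + c)) + Module.finrank ℂ (Cm d) := by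
    simp only [Module.finrank_fin_fun]
  have hn3 : Module.finrank ℂ (Cm (q + c)) =
      Module.finrank ℂ (Cm q) + Module.finrank ℂ (Cm c) := by
    simp only [Module.finrank_fin_fun]
  obtain ⟨cs, hman, hval, hvimm⟩ := exists_level (E₀ := Cm d) hn2 hg.hol hgsub
  have hcomp : CompactSpace (g ⁻¹' {g x}) :=
    isCompact_iff_compactSpace.1 (isClosed_singleton.preimage hg.hol.continuous).isCompact
  have hconn : ConnectedSpace (g ⁻¹' {g x}) := isConnected_iff_connectedSpace.1 (hg.fibres (g x))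
  have hfibG : H511.Surf.IsFibre (Cm (q + c + d)) (Cm d) g (g x) (Subtype.val : g ⁻¹' {g x} → X) :=
    ⟨hcomp, hconn, hman, hval, hvimm, fun t => t.2⟩
  have hle := hG (g x) hzH (g ⁻¹' {g x}) Subtype.val hfibG
  have hfv : ∀ s : g ⁻¹' {g x}, h (g s.1) = y := fun s => by
    have h4 : g s.1 = g x := s.2
    rw [h4, hxy]
  obtain ⟨ι, hι, hιc, hιimm⟩ := exists_iota hn hf.hol hi.hol hfsub hi.immersion hi.fibre hinj hsur
    hval hvimm hfv
  have hhsub : Function.Surjective (mfderiv 𝓘(ℂ, Cm (q + c)) 𝓘(ℂ, Cm q) h (g x)) := by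
    intro u
    obtain ⟨ξ, hξ⟩ := hfsub x hxy u
    refine ⟨mfderiv 𝓘(ℂ, Cm (q + c + d)) 𝓘(ℂ, Cm (q + c)) g x ξ, ?_⟩
    have h4 := mfderiv_comp_apply x (g := h) (f := g) ((hh.hol (g x)).mdifferentiableAt (by simp))
      ((hg.hol x).mdifferentiableAt (by simp)) ξ
    exact h4.symm.trans hξ
  obtain ⟨W, hW⟩ := exists_normal (V := Cm c) hn hn3 hg.hol hh.hol hi.hol hgsub hhsub
    hi.immersion hi.fibre
  have hgι : ∀ s, g (i (ι s)) = g x := fun s => by rw [hι]; exact s.2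
  -- the good point
  let s₀ : g ⁻¹' {g x} := ⟨x, rfl⟩
  have hs₀ : ι s₀ = ρ x := hinj ((hι s₀).trans hix.symm)
  have hres := restr (N := N) (j := N - c) (i := i) (Δ := Δ) hιc hιimm
    (fun s => (hW _ (hgι s)).1) (fun s s' => (hW _ (hgι s')).2.2.1 _ (hgι s))
    (fun s => (hW _ (hgι s)).2.2.2) hm hk hσ s₀ (by rw [hs₀]; exact b1) (by rw [hs₀]; exact b2)
    (by rw [hs₀]; exact b3) le_rfl
  have hval' : (fun s => i (ι s)) = (Subtype.val : g ⁻¹' {g x} → X) := funext hι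
  rw [hval'] at hres
  have hle2 := add_le_add (hres.trans hle) (le_refl ((c : ℕ∞) : WithBot ℕ∞))
  refine le_trans ?_ hle2
  have h5 : N ≤ N - c + c := by omega
  have h6 : ((N : ℕ∞) : WithBot ℕ∞) ≤ (((N - c + c : ℕ) : ℕ∞) : WithBot ℕ∞) := by
    exact_mod_cast h5
  refine h6.trans (le_of_eq ?_)
  push_cast
  rfl

end Vale.Agent.P281.H740
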